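import Mathlib

/-!
P038, H84. The fair transport lemma (a quadratic minimiser and its first order conditions).
-/

namespace Vale.Agent.P038.H84

open Finset

variable {V : Type*} [Fintype V] [DecidableEq V]

open Classical in
/-- Fair transport: `s` may send mass to `t` when `E s t`; every `t` with a possible sender
receives exactly `w t`; under the Hall condition every `s` with `G s` sends at least `w s`, and the
mass received by `t` comes from the senders with the smallest ratio. -/
theorem fair (w : V → ℝ) (hw : ∀ v, 0 < w v) (G : V → Prop) (E : V → V → Prop)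
    (hEG : ∀ s t, E s t → G s)
    (hall : ∀ S : Finset V, (∀ s ∈ S, G s) →
      ∑ s ∈ S, w s ≤ ∑ t ∈ univ.filter (fun t => ∃ s ∈ S, E s t), w t) :
    ∃ q : V → V → ℝ, (∀ s t, 0 ≤ q s t) ∧ (∀ s t, ¬ E s t → q s t = 0) ∧
      (∀ t, (∃ s, E s t) → ∑ s, q s t = w t) ∧
      (∀ s, G s → w s ≤ ∑ t, q s t) ∧
      (∀ s₁ t s₂, 0 < q s₁ t → E s₂ t → (∑ t, q s₁ t) / w s₁ ≤ (∑ t, q s₂ t) / w s₂) := by
  -- the compact set
  let Q : Set (V → V → ℝ) := {q | (∀ s t, 0 ≤ q s t) ∧ (∀ s t, ¬ E s t → q s t = 0) ∧
      (∀ t, (∃ s, E s t) → ∑ s, q s t = w t)}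
  have hQsub : Q ⊆ Set.Icc (fun _ _ => (0 : ℝ)) (fun _ t => w t) := by
    rintro q ⟨h0, h1, h2⟩
    refine ⟨fun s t => h0 s t, fun s t => ?_⟩
    by_cases h : E s t
    · have := h2 t ⟨s, h⟩
      calc q s t ≤ ∑ s, q s t := single_le_sum (fun i _ => h0 i t) (mem_univ s)
        _ = w t := this
    · show q s t ≤ w t
      rw [h1 s t h]; exact (hw t).le
  have hQclosed : IsClosed Q := by
    have e : Q = (⋂ s, ⋂ t, {q : V → V → ℝ | 0 ≤ q s t}) ∩
        ((⋂ s, ⋂ t, {q : V → V → ℝ | ¬ E s t → q s t = 0}) ∩
          (⋂ t, {q : V → V → ℝ | (∃ s, E s t) → ∑ s, q s t = w t})) := by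
      ext q
      simp only [Q, Set.mem_ofPred_eq, Set.mem_inter_iff, Set.mem_iInter]
    rw [e]
    have c : ∀ s t, Continuous (fun q : V → V → ℝ => q s t) := fun s t => by fun_prop
    refine IsClosed.inter ?_ (IsClosed.inter ?_ ?_)
    · exact isClosed_iInter fun s => isClosed_iInter fun t =>
        isClosed_le continuous_const (c s t)
    · refine isClosed_iInter fun s => isClosed_iInter fun t => ?_
      by_cases h : E s t
      · simp [h]
      · simpa [h] using isClosed_eq (c s t) continuous_const
    · refine isClosed_iInter fun t => ?_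
      by_cases h : ∃ s, E s t
      · simp only [h, forall_const]
        exact isClosed_eq (by fun_prop) continuous_const
      · simp [h]
  have hQcpt : IsCompact Q := (isCompact_Icc).of_isClosed_subset hQclosed hQsub
  have hQne : Q.Nonempty := by
    refine ⟨fun s t => if h : ∃ s, E s t then (if s = h.choose then w t else 0) else 0, ?_, ?_, ?_⟩
    · intro s t
      by_cases h : ∃ s, E s t
      · simp only [h, dif_pos]
        split_ifs
        · exact (hw t).le
        · exact le_rfl
      · simp [h]
    · intro s t hst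
      by_cases h : ∃ s, E s t
      · simp only [h, dif_pos]
        rw [if_neg]
        rintro rfl
        exact hst h.choose_spec
      · simp [h]
    · intro t h
      simp only [h, dif_pos]
      simp
  let Φ : (V → V → ℝ) → ℝ := fun q => ∑ s, (∑ t, q s t) ^ 2 / w s
  have hΦ : Continuous Φ := by
    refine continuous_finsetSum _ fun s _ => ?_
    refine Continuous.div_const (Continuous.pow ?_ 2) _
    exact continuous_finsetSum _ fun t _ => by fun_prop
  obtain ⟨q, hqQ, hmin⟩ := hQcpt.exists_isMinOn hQne hΦ.continuousOn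
  obtain ⟨h0, h1, h2⟩ := hqQ
  have kkt : ∀ s₁ t s₂, 0 < q s₁ t → E s₂ t →
      (∑ t, q s₁ t) / w s₁ ≤ (∑ t, q s₂ t) / w s₂ := by
    intro s₁ t s₂ hpos hE
    by_cases h12 : s₁ = s₂
    · rw [h12]
    by_contra hlt
    push Not at hlt
    have hE1 : E s₁ t := by
      by_contra hne
      rw [h1 _ _ hne] at hpos
      exact lt_irrefl _ hpos
    set x₁ := (∑ t, q s₁ t) / w s₁ with hx1
    set x₂ := (∑ t, q s₂ t) / w s₂ with hx2
    have hc : 0 < 1 / w s₁ + 1 / w s₂ := by
      have := hw s₁; have := hw s₂; positivity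
    set ε := min (q s₁ t) ((x₁ - x₂) / (1 / w s₁ + 1 / w s₂)) with hε
    have hεpos : 0 < ε := lt_min hpos (div_pos (by linarith) hc)
    have hε1 : ε ≤ q s₁ t := min_le_left _ _
    have hε2 : ε * (1 / w s₁ + 1 / w s₂) ≤ x₁ - x₂ := by
      have : ε ≤ (x₁ - x₂) / (1 / w s₁ + 1 / w s₂) := min_le_right _ _
      rwa [le_div_iff₀ hc] at this
    -- the perturbed transport
    let d : V → ℝ := fun s => (if s = s₂ then 1 else 0) - (if s = s₁ then 1 else 0)
    let q' : V → V → ℝ := fun s u => q s u + (if u = t then ε * d s else 0)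
    have hsumd : ∑ s, d s = 0 := by simp [d, sum_sub_distrib]
    have hq' : q' ∈ Q := by
      refine ⟨?_, ?_, ?_⟩
      · intro s u
        show 0 ≤ q s u + (if u = t then ε * d s else 0)
        by_cases hu : u = t
        · subst hu
          rw [if_pos rfl]
          by_cases hs1 : s = s₁
          · subst hs1
            simp only [d, if_pos, h12, if_neg, if_false]
            linarith
          · by_cases hs2 : s = s₂
            · subst hs2
              simp only [d, if_pos, hs1, if_false, if_true]
              have := h0 s u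
              linarith
            · simp only [d, hs1, hs2, if_false]
              have := h0 s u
              linarith
        · rw [if_neg hu]
          have := h0 s u
          linarith
      · intro s u hsu
        show q s u + (if u = t then ε * d s else 0) = 0
        rw [h1 s u hsu]
        by_cases hu : u = t
        · subst hu
          have hs1 : s ≠ s₁ := by rintro rfl; exact hsu hE1
          have hs2 : s ≠ s₂ := by rintro rfl; exact hsu hE
          simp [d, hs1, hs2]
        · simp [hu]
      · intro u hu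
        show ∑ s, (q s u + (if u = t then ε * d s else 0)) = w u
        rw [sum_add_distrib, h2 u hu]
        by_cases hut : u = t
        · subst hut
          simp only [if_true, ← mul_sum, hsumd]
          simp
        · simp [hut]
    have hle : Φ q ≤ Φ q' := hmin hq'
    have hrow : ∀ s, ∑ u, q' s u = (∑ u, q s u) + ε * d s := by
      intro s
      show ∑ u, (q s u + (if u = t then ε * d s else 0)) = _
      rw [sum_add_distrib]
      simp
    have hΦ' : Φ q' = Φ q + ∑ s, (2 * ε * (∑ u, q s u) * d s + ε ^ 2 * d s ^ 2) / w s := by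
      show ∑ s, (∑ u, q' s u) ^ 2 / w s = ∑ s, (∑ u, q s u) ^ 2 / w s + _
      rw [← sum_add_distrib]
      refine sum_congr rfl fun s _ => ?_
      rw [hrow s]
      have := (hw s).ne'
      field_simp
      ring
    have hS : ∑ s, (2 * ε * (∑ u, q s u) * d s + ε ^ 2 * d s ^ 2) / w s
        = 2 * ε * (x₂ - x₁) + ε ^ 2 * (1 / w s₁ + 1 / w s₂) := by
      have hz : ∀ s ∈ (univ : Finset V), s ∉ ({s₁, s₂} : Finset V) →
          (2 * ε * (∑ u, q s u) * d s + ε ^ 2 * d s ^ 2) / w s = 0 := by
        intro s _ hs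
        simp only [mem_insert, mem_singleton, not_or] at hs
        simp [d, hs.1, hs.2]
      rw [← sum_subset (subset_univ ({s₁, s₂} : Finset V)) hz, sum_pair h12]
      have hd1 : d s₁ = -1 := by simp [d, h12]
      have hd2 : d s₂ = 1 := by simp [d, Ne.symm h12]
      rw [hd1, hd2, hx1, hx2]
      have := (hw s₁).ne'
      have := (hw s₂).ne'
      field_simp
      ring
    rw [hΦ', hS] at hle
    have : 0 ≤ 2 * ε * (x₂ - x₁) + ε ^ 2 * (1 / w s₁ + 1 / w s₂) := by linarith
    nlinarith
  refine ⟨q, h0, h1, h2, ?_, kkt⟩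
  -- Hall gives ratio at least one
  intro s₀ hs₀
  by_contra hlt
  push Not at hlt
  let S : Finset V := univ.filter (fun s => G s ∧ ∑ t, q s t < w s)
  have hSG : ∀ s ∈ S, G s := fun s hs => (mem_filter.mp hs).2.1
  have hH := hall S hSG
  have key : ∑ t ∈ univ.filter (fun t => ∃ s ∈ S, E s t), w t
      ≤ ∑ t ∈ univ.filter (fun t => ∃ s ∈ S, E s t), ∑ s ∈ S, q s t := by
    refine sum_le_sum fun t ht => ?_
    obtain ⟨s, hsS, hst⟩ := (mem_filter.mp ht).2
    rw [← h2 t ⟨s, hst⟩]
    have hz : ∀ s' ∈ (univ : Finset V), s' ∉ S → q s' t = 0 := by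
      intro s' _ hs'
      by_contra hne
      have hpos : 0 < q s' t := lt_of_le_of_ne (h0 s' t) (Ne.symm hne)
      have hE' : E s' t := by
        by_contra h
        exact hne (h1 _ _ h)
      have hk := kkt s' t s hpos hst
      have hs1 := (mem_filter.mp hsS).2.2
      apply hs'
      refine mem_filter.mpr ⟨mem_univ _, hEG _ _ hE', ?_⟩
      have : (∑ t, q s t) / w s < 1 := by rw [div_lt_one (hw s)]; exact hs1
      have : (∑ t, q s' t) / w s' < 1 := lt_of_le_of_lt hk this
      rwa [div_lt_one (hw s')] at this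
    rw [sum_subset (subset_univ S) hz]
  have key2 : ∑ t ∈ univ.filter (fun t => ∃ s ∈ S, E s t), ∑ s ∈ S, q s t
      ≤ ∑ s ∈ S, ∑ t, q s t := by
    rw [sum_comm]
    refine sum_le_sum fun s _ => ?_
    exact sum_le_sum_of_subset_of_nonneg (subset_univ _) fun t _ _ => h0 s t
  have key3 : ∑ s ∈ S, ∑ t, q s t < ∑ s ∈ S, w s := by
    refine sum_lt_sum_of_nonempty ⟨s₀, mem_filter.mpr ⟨mem_univ _, hs₀, hlt⟩⟩ fun s hs => ?_
    exact (mem_filter.mp hs).2.2
  linarith

end Vale.Agent.P038.H84
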