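import Mathlib
import Vale.Agent.P038.H84.Fair

/-!
P038, H84. The two dimensional gap inequality, from the row and the column Hall conditions.
-/

namespace Vale.Agent.P038.H84

open Finset

variable {V : Type*} [Fintype V] [DecidableEq V]

open Classical in
/-- Selection of a maximiser with a fixed tie rule. -/
theorem exists_sel (M : Finset V) (hM : M.Nonempty) (g : V → ℝ) (idx : V → ℕ) :
    ∃ b ∈ M, ∀ b' ∈ M, g b' < g b ∨ (g b' = g b ∧ idx b ≤ idx b') := by
  obtain ⟨b₀, hb₀, hmax⟩ := M.exists_max_image g hM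
  let M' := M.filter (fun b => g b = g b₀)
  have hM' : M'.Nonempty := ⟨b₀, mem_filter.mpr ⟨hb₀, rfl⟩⟩
  obtain ⟨b, hb, hmin⟩ := M'.exists_min_image idx hM'
  have hb2 := (mem_filter.mp hb).2
  refine ⟨b, (mem_filter.mp hb).1, fun b' hb' => ?_⟩
  rcases lt_or_eq_of_le (hmax b' hb') with h | h
  · left; rw [hb2]; exact h
  · right
    exact ⟨by rw [h, hb2], hmin b' (mem_filter.mpr ⟨hb', h⟩)⟩

open Classical in
/-- Weighted measure of a relation. -/
noncomputable def mu (w : V → ℝ) (P : V → V → Prop) : ℝ :=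
  ∑ a, ∑ x, if P a x then w a * w x else 0

open Classical in
theorem club (w : V → ℝ) (hw : ∀ v, 0 < w v) (K B U : V → V → Prop)
    (hR : ∀ a (T : Finset V), (∀ x ∈ T, U a x ∧ ¬ B a x) →
      ∑ x ∈ T, w x ≤ ∑ y ∈ univ.filter (fun y => (∃ x ∈ T, K x y) ∧ ¬ ∃ x, K x y ∧ B a x), w y)
    (hC : ∀ b (T : Finset V), (∀ a ∈ T, U a b ∧ ¬ B a b) →
      ∑ a ∈ T, w a ≤ ∑ y ∈ univ.filter (fun y => (∃ a ∈ T, K a y) ∧ ∀ a, K a y → U a b), w y) :
    mu w (fun a y => (∃ x, K x y ∧ U a x ∧ ¬ B a x) ∧ ¬ ∃ x, K x y ∧ B a x)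
      + mu w (fun y b => (∀ a, K a y → U a b) ∧ ∃ a, K a y ∧ U a b ∧ ¬ B a b)
    ≤ mu w (fun a x => U a x ∧ ¬ B a x)
      + mu w (fun y b => (∀ a, K a y → ∃ x, K x b ∧ U a x) ∧
          ¬ ∃ x, K x b ∧ ∀ a, K a y → B a x) := by
  -- abbreviations
  set G : V → V → Prop := fun a x => U a x ∧ ¬ B a x with hG
  set R : V → V → Prop := fun a y => (∃ x, K x y ∧ U a x ∧ ¬ B a x) ∧ ¬ ∃ x, K x y ∧ B a x with hRd
  set Cs : V → V → Prop := fun y b => (∀ a, K a y → U a b) ∧ ∃ a, K a y ∧ U a b ∧ ¬ B a b with hCs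
  set F : V → V → Prop := fun y b => (∀ a, K a y → ∃ x, K x b ∧ U a x) ∧
          ¬ ∃ x, K x b ∧ ∀ a, K a y → B a x with hF
  -- row transports
  have hrow : ∀ a, ∃ p : V → V → ℝ, (∀ s t, 0 ≤ p s t) ∧
      (∀ s t, ¬ (G a s ∧ K s t ∧ ¬ ∃ x, K x t ∧ B a x) → p s t = 0) ∧
      (∀ t, (∃ s, G a s ∧ K s t ∧ ¬ ∃ x, K x t ∧ B a x) → ∑ s, p s t = w t) ∧
      (∀ s, G a s → w s ≤ ∑ t, p s t) ∧
      (∀ s₁ t s₂, 0 < p s₁ t → (G a s₂ ∧ K s₂ t ∧ ¬ ∃ x, K x t ∧ B a x) →
        (∑ t, p s₁ t) / w s₁ ≤ (∑ t, p s₂ t) / w s₂) := by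
    intro a
    refine fair w hw (G a) (fun s t => G a s ∧ K s t ∧ ¬ ∃ x, K x t ∧ B a x)
      (fun s t h => h.1) ?_
    intro S hS
    refine (hR a S hS).trans (le_of_eq ?_)
    congr 1
    ext y
    simp only [mem_filter, mem_univ, true_and]
    constructor
    · rintro ⟨⟨x, hx, hxy⟩, hn⟩
      exact ⟨x, hx, hS x hx, hxy, hn⟩
    · rintro ⟨x, hx, _, hxy, hn⟩
      exact ⟨⟨x, hx, hxy⟩, hn⟩
  have hcol : ∀ b, ∃ q : V → V → ℝ, (∀ s t, 0 ≤ q s t) ∧
      (∀ s t, ¬ (G s b ∧ K s t ∧ ∀ a, K a t → U a b) → q s t = 0) ∧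
      (∀ t, (∃ s, G s b ∧ K s t ∧ ∀ a, K a t → U a b) → ∑ s, q s t = w t) ∧
      (∀ s, G s b → w s ≤ ∑ t, q s t) ∧
      (∀ s₁ t s₂, 0 < q s₁ t → (G s₂ b ∧ K s₂ t ∧ ∀ a, K a t → U a b) →
        (∑ t, q s₁ t) / w s₁ ≤ (∑ t, q s₂ t) / w s₂) := by
    intro b
    refine fair w hw (fun s => G s b) (fun s t => G s b ∧ K s t ∧ ∀ a, K a t → U a b)
      (fun s t h => h.1) ?_
    intro S hS
    refine (hC b S hS).trans (le_of_eq ?_)
    congr 1
    ext y
    simp only [mem_filter, mem_univ, true_and]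
    constructor
    · rintro ⟨⟨x, hx, hxy⟩, hn⟩
      exact ⟨x, hx, hS x hx, hxy, hn⟩
    · rintro ⟨x, hx, _, hxy, hn⟩
      exact ⟨⟨x, hx, hxy⟩, hn⟩
  choose p hp0 hp1 hp2 hp3 _ using hrow
  choose q hq0 hq1 hq2 hq3 hq4 using hcol
  -- the ratios
  set X : V → V → ℝ := fun b a => ∑ t, q b a t with hX
  have hXdef : ∀ b a, X b a = ∑ t, q b a t := fun b a => rfl
  set γ : V → V → ℝ := fun b a => X b a / w a with hγ
  have hXγ : ∀ b a, X b a = w a * γ b a := by
    intro b a
    simp only [hγ]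
    have := (hw a).ne'
    field_simp
  have hγ1 : ∀ b a, G a b → 1 ≤ γ b a := by
    intro b a h
    simp only [hγ]
    rw [one_le_div (hw a)]
    exact hq3 b a h
  have hXzero : ∀ b a, ¬ G a b → X b a = 0 := by
    intro b a h
    rw [hXdef]
    exact sum_eq_zero fun t _ => hq1 b a t (fun h' => h h'.1)
  -- selection
  let idx : V → ℕ := fun v => (Fintype.equivFin V v : ℕ)
  have hidx : ∀ u v, idx u = idx v → u = v := by
    intro u v h
    exact (Fintype.equivFin V).injective (Fin.ext h)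
  have hsel : ∀ a y, R a y → ∃ b, (K b y ∧ G a b) ∧ ∀ b', (K b' y ∧ G a b') →
      γ b' a < γ b a ∨ (γ b' a = γ b a ∧ idx b ≤ idx b') := by
    intro a y h
    obtain ⟨⟨x, hx, hx2⟩, _⟩ := h
    obtain ⟨b, hb, hb2⟩ := exists_sel (univ.filter (fun b => K b y ∧ G a b))
      ⟨x, mem_filter.mpr ⟨mem_univ _, hx, hx2⟩⟩ (fun b => γ b a) idx
    exact ⟨b, (mem_filter.mp hb).2, fun b' hb' => hb2 b' (mem_filter.mpr ⟨mem_univ _, hb'⟩)⟩
  choose! sel hselM hselmax using hsel
  set Γ : V → V → ℝ := fun a y => γ (sel a y) a with hΓ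
  have hΓmax : ∀ a y b, R a y → K b y → G a b → γ b a ≤ Γ a y := by
    intro a y b h hb hg
    rcases hselmax a y h b ⟨hb, hg⟩ with h1 | h1
    · exact h1.le
    · exact h1.1.le
  -- (S1)
  have S1 : ∀ b, ∑ a, X b a = ∑ y, if Cs y b then w y else 0 := by
    intro b
    simp only [hXdef]
    rw [sum_comm]
    refine sum_congr rfl fun y _ => ?_
    by_cases h : Cs y b
    · rw [if_pos h]
      obtain ⟨h1, a, ha, hga⟩ := h
      exact hq2 b y ⟨a, hga, ha, h1⟩
    · rw [if_neg h]
      refine sum_eq_zero fun a _ => hq1 b a y ?_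
      rintro ⟨h1, h2, h3⟩
      exact h ⟨h3, a, h2, h1⟩
  -- (S3)
  have S3 : ∀ a, ∑ b, (if G a b then w b * (γ b a - 1) else 0)
      ≤ ∑ y, (if R a y then w y * (Γ a y - 1) else 0) := by
    intro a
    have e1 : ∀ b, (if G a b then w b * (γ b a - 1) else 0) ≤ ∑ y, p a b y * (γ b a - 1) := by
      intro b
      by_cases h : G a b
      · rw [if_pos h, ← sum_mul]
        exact mul_le_mul_of_nonneg_right (hp3 a b h) (by linarith [hγ1 b a h])
      · rw [if_neg h]
        have : ∀ y ∈ (univ : Finset V), p a b y * (γ b a - 1) = 0 := by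
          intro y _
          rw [hp1 a b y (fun h' => h h'.1), zero_mul]
        rw [sum_eq_zero this]
    calc ∑ b, (if G a b then w b * (γ b a - 1) else 0)
        ≤ ∑ b, ∑ y, p a b y * (γ b a - 1) := sum_le_sum fun b _ => e1 b
      _ = ∑ y, ∑ b, p a b y * (γ b a - 1) := sum_comm
      _ ≤ ∑ y, (if R a y then w y * (Γ a y - 1) else 0) := by
          refine sum_le_sum fun y _ => ?_
          by_cases h : R a y
          · rw [if_pos h]
            have e2 : ∑ b, p a b y = w y := by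
              obtain ⟨⟨x, hx, hx2⟩, hn⟩ := h
              exact hp2 a y ⟨x, hx2, hx, hn⟩
            rw [← e2, sum_mul]
            refine sum_le_sum fun b _ => ?_
            by_cases hE : G a b ∧ K b y ∧ ¬ ∃ x, K x y ∧ B a x
            · refine mul_le_mul_of_nonneg_left ?_ (hp0 a b y)
              linarith [hΓmax a y b h hE.2.1 hE.1]
            · rw [hp1 a b y hE, zero_mul, zero_mul]
          · rw [if_neg h]
            refine le_of_eq (sum_eq_zero fun b _ => ?_)
            rw [hp1 a b y, zero_mul]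
            rintro ⟨h1, h2, h3⟩
            exact h ⟨⟨b, h2, h1⟩, h3⟩
  -- (S4)
  have S4 : ∀ y, ∑ a, (if R a y then w a * Γ a y else 0) ≤ ∑ a', (if F a' y then w a' else 0) := by
    intro y
    have e1 : ∑ a, (if R a y then w a * Γ a y else 0)
        = ∑ a', ∑ a, (if R a y then q (sel a y) a a' else 0) := by
      rw [sum_comm]
      refine sum_congr rfl fun a _ => ?_
      by_cases h : R a y
      · simp only [if_pos h]
        rw [← hXdef, hXγ]
      · simp only [if_neg h]
        simp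
    rw [e1]
    refine sum_le_sum fun a' _ => ?_
    by_cases hex : ∃ a, R a y ∧ 0 < q (sel a y) a a'
    · obtain ⟨a₁, hR1, hpos1⟩ := hex
      -- positivity data
      have hdata : ∀ a, R a y → 0 < q (sel a y) a a' →
          (G a (sel a y) ∧ K a a' ∧ ∀ c, K c a' → U c (sel a y)) := by
        intro a _ h
        by_contra hne
        rw [hq1 _ _ _ hne] at h
        exact lt_irrefl _ h
      have hnB : ∀ a, R a y → ∀ b, K b y → ¬ B a b := by
        intro a h b hb hB
        exact h.2 ⟨b, hb, hB⟩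
      obtain ⟨hg1, hk1, hu1⟩ := hdata a₁ hR1 hpos1
      have hFa : F a' y := by
        refine ⟨fun c hc => ⟨sel a₁ y, (hselM a₁ y hR1).1, hu1 c hc⟩, ?_⟩
        rintro ⟨x, hx, hx2⟩
        exact hnB a₁ hR1 x hx (hx2 a₁ hk1)
      rw [if_pos hFa]
      have hsame : ∀ a, R a y → 0 < q (sel a y) a a' → sel a y = sel a₁ y := by
        intro a h hpos
        obtain ⟨hg, hk, hu⟩ := hdata a h hpos
        have hb1 := (hselM a₁ y hR1).1
        have hb := (hselM a y h).1
        -- all four cells are gap cells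
        have g12 : G a (sel a₁ y) := ⟨hu1 a hk, hnB a h _ hb1⟩
        have g21 : G a₁ (sel a y) := ⟨hu a₁ hk1, hnB a₁ hR1 _ hb⟩
        have i1 : γ (sel a₁ y) a₁ ≤ γ (sel a₁ y) a :=
          hq4 (sel a₁ y) a₁ a' a hpos1 ⟨g12, hk, hu1⟩
        have i2 : γ (sel a y) a ≤ γ (sel a y) a₁ :=
          hq4 (sel a y) a a' a₁ hpos ⟨g21, hk1, hu⟩
        have m1 := hselmax a y h (sel a₁ y) ⟨hb1, g12⟩
        have m2 := hselmax a₁ y hR1 (sel a y) ⟨hb, g21⟩
        rcases m1 with m1 | m1
        · rcases m2 with m2 | m2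
          · linarith
          · linarith [m2.1]
        · rcases m2 with m2 | m2
          · linarith [m1.1]
          · exact hidx _ _ (le_antisymm m1.2 m2.2)
      calc ∑ a, (if R a y then q (sel a y) a a' else 0)
          ≤ ∑ a, q (sel a₁ y) a a' := by
            refine sum_le_sum fun a _ => ?_
            by_cases h : R a y
            · rw [if_pos h]
              rcases eq_or_lt_of_le (hq0 (sel a y) a a') with h0 | h0
              · rw [← h0]; exact hq0 _ _ _
              · rw [hsame a h h0]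
            · rw [if_neg h]; exact hq0 _ _ _
        _ = w a' := hq2 (sel a₁ y) a' ⟨a₁, hg1, hk1, hu1⟩
    · have hz : ∑ a, (if R a y then q (sel a y) a a' else 0) = 0 := by
        refine sum_eq_zero fun a _ => ?_
        by_cases h : R a y
        · rw [if_pos h]
          by_contra hne
          exact hex ⟨a, h, lt_of_le_of_ne (hq0 _ _ _) (Ne.symm hne)⟩
        · rw [if_neg h]
      rw [hz]
      split_ifs
      · exact (hw a').le
      · exact le_rfl
  -- combination
  have T1 : mu w Cs - mu w G = ∑ a, w a * ∑ b, (if G a b then w b * (γ b a - 1) else 0) := by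
    have h1 : mu w Cs = ∑ b, w b * ∑ a, X b a := by
      unfold mu
      rw [sum_comm]
      refine sum_congr rfl fun b _ => ?_
      rw [S1 b, mul_sum]
      refine sum_congr rfl fun y _ => ?_
      split_ifs <;> ring
    have h2 : mu w Cs = ∑ a, ∑ b, (if G a b then w a * w b * γ b a else 0) := by
      rw [h1]
      simp only [mul_sum]
      rw [sum_comm]
      refine sum_congr rfl fun a _ => sum_congr rfl fun b _ => ?_
      by_cases h : G a b
      · rw [if_pos h, hXγ]; ring
      · rw [if_neg h, hXzero b a h, mul_zero]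
    rw [h2]
    unfold mu
    rw [← sum_sub_distrib]
    refine sum_congr rfl fun a _ => ?_
    rw [← sum_sub_distrib, mul_sum]
    refine sum_congr rfl fun b _ => ?_
    split_ifs <;> ring
  have T2 : ∑ a, w a * ∑ y, (if R a y then w y * (Γ a y - 1) else 0) ≤ mu w F - mu w R := by
    have h1 : ∑ a, w a * ∑ y, (if R a y then w y * (Γ a y - 1) else 0)
        = ∑ y, w y * (∑ a, (if R a y then w a * Γ a y else 0)) - mu w R := by
      unfold mu
      simp only [mul_sum]
      rw [sum_comm (f := fun y a => w y * (if R a y then w a * Γ a y else 0)),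
        ← sum_sub_distrib]
      refine sum_congr rfl fun a _ => ?_
      rw [← sum_sub_distrib]
      refine sum_congr rfl fun y _ => ?_
      split_ifs <;> ring
    have h2 : mu w F = ∑ y, w y * ∑ a', (if F a' y then w a' else 0) := by
      unfold mu
      rw [sum_comm]
      refine sum_congr rfl fun y _ => ?_
      rw [mul_sum]
      refine sum_congr rfl fun a _ => ?_
      split_ifs <;> ring
    rw [h1, h2]
    have : ∑ y, w y * (∑ a, (if R a y then w a * Γ a y else 0))
        ≤ ∑ y, w y * ∑ a', (if F a' y then w a' else 0) :=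
      sum_le_sum fun y _ => mul_le_mul_of_nonneg_left (S4 y) (hw y).le
    linarith
  have T3 : ∑ a, w a * ∑ b, (if G a b then w b * (γ b a - 1) else 0)
      ≤ ∑ a, w a * ∑ y, (if R a y then w y * (Γ a y - 1) else 0) :=
    sum_le_sum fun a _ => mul_le_mul_of_nonneg_left (S3 a) (hw a).le
  linarith

end Vale.Agent.P038.H84
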