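import Mathlib
import Vale.Agent.P038.H84.Club

/-!
P038, H84. From a minimal outer pair to the contradiction.
-/

namespace Vale.Agent.P038.H84

open Finset

variable {V : Type*} [Fintype V] [DecidableEq V]

open Classical in
/-- Closed out-neighbourhood of a set for a relation `K`. -/
noncomputable def NN (K : V → V → Prop) (S : Finset V) : Finset V :=
  univ.filter (fun y => ∃ x ∈ S, K x y)

/-- weight of the boundary -/
noncomputable def cc (w : V → ℝ) (K : V → V → Prop) (S : Finset V) : ℝ :=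
  ∑ x ∈ NN K S, w x - ∑ x ∈ S, w x

/-- Feasible (outer) pairs of families. -/
def Feas (K : V → V → Prop) (P : (V → Finset V) × (V → Finset V)) : Prop :=
  (∀ a x, K a x → x ∈ P.1 a) ∧ (∀ a x, K a x → x ∈ P.2 a) ∧
    ∀ a x, a ≠ x → ¬ (x ∈ P.1 a ∧ a ∈ P.2 x)

noncomputable def oo (w : V → ℝ) (K : V → V → Prop)
    (P : (V → Finset V) × (V → Finset V)) : ℝ :=
  ∑ a, w a * (cc w K (P.1 a) + cc w K (P.2 a))

theorem mem_NN {K : V → V → Prop} {S : Finset V} {y : V} : y ∈ NN K S ↔ ∃ x ∈ S, K x y := by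
  classical
  simp [NN]

theorem mu_congr (w : V → ℝ) {P Q : V → V → Prop} (h : ∀ a x, P a x ↔ Q a x) :
    mu w P = mu w Q := by
  have : P = Q := by funext a x; exact propext (h a x)
  rw [this]

theorem mu_mem (w : V → ℝ) (P : V → Finset V) :
    ∑ a, w a * ∑ x ∈ P a, w x = mu w (fun a x => x ∈ P a) := by
  classical
  unfold mu
  refine sum_congr rfl fun a _ => ?_
  rw [mul_sum]
  have e : (univ.filter fun x => x ∈ P a) = P a := by ext x; simp
  calc ∑ x ∈ P a, w a * w x = ∑ x ∈ univ.filter (fun x => x ∈ P a), w a * w x := by rw [e]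
    _ = ∑ x, if x ∈ P a then w a * w x else 0 := sum_filter _ _
    _ = _ := sum_congr rfl fun x _ => by by_cases h : x ∈ P a <;> simp [h]

theorem mu_swap (w : V → ℝ) (P : V → V → Prop) :
    mu w P = mu w (fun a x => P x a) := by
  classical
  unfold mu
  rw [sum_comm]
  refine sum_congr rfl fun a _ => sum_congr rfl fun x _ => ?_
  split_ifs <;> ring

/-- pointwise comparison of indicator sums -/
theorem mu_add_eq (w : V → ℝ) {P Q R S : V → V → Prop}
    (h : ∀ a x, (P a x ∧ ¬ Q a x ∧ ((R a x ∧ ¬ S a x) ∨ (¬ R a x ∧ S a x))) ∨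
      (¬ P a x ∧ Q a x ∧ ((R a x ∧ ¬ S a x) ∨ (¬ R a x ∧ S a x))) ∨
      (¬ P a x ∧ ¬ Q a x ∧ ¬ R a x ∧ ¬ S a x)) :
    mu w P + mu w Q = mu w R + mu w S := by
  classical
  unfold mu
  rw [← sum_add_distrib, ← sum_add_distrib]
  refine sum_congr rfl fun a _ => ?_
  rw [← sum_add_distrib, ← sum_add_distrib]
  refine sum_congr rfl fun x _ => ?_
  rcases h a x with h | h | h
  · rcases h with ⟨h1, h2, h3 | h3⟩ <;> simp [h1, h2, h3.1, h3.2]
  · rcases h with ⟨h1, h2, h3 | h3⟩ <;> simp [h1, h2, h3.1, h3.2]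
  · simp [h.1, h.2.1, h.2.2.1, h.2.2.2]

theorem mu_compl (w : V → ℝ) (P : V → V → Prop) :
    mu w (fun a x => ¬ P a x) = mu w (fun _ _ => True) - mu w P := by
  classical
  have : mu w P + mu w (fun a x => ¬ P a x) = mu w (fun _ _ => True) + mu w (fun _ _ => False) := by
    refine mu_add_eq w fun a x => ?_
    by_cases h : P a x
    · left; exact ⟨h, by simpa using h, Or.inl ⟨trivial, fun h => h⟩⟩
    · right; left; exact ⟨h, h, Or.inl ⟨trivial, fun h => h⟩⟩
  have h0 : mu w (fun _ _ => False) = 0 := by simp [mu]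
  linarith

/-- The row Hall condition from minimality: first family. -/
theorem hall_fst (w : V → ℝ) (hw : ∀ v, 0 < w v) (K : V → V → Prop)
    (B C : V → Finset V) (hF : Feas K (B, C))
    (hmin : ∀ P, Feas K P → oo w K (B, C) ≤ oo w K P)
    (a : V) (T : Finset V) (hT : ∀ x ∈ T, a ∉ C x ∧ x ∉ B a) :
    ∑ x ∈ T, w x ≤ ∑ y ∈ NN K T \ NN K (B a), w y := by
  obtain ⟨h1, h2, h3⟩ := hF
  have hfeas : Feas K (Function.update B a (B a ∪ T), C) := by
    refine ⟨?_, h2, ?_⟩
    · intro b x hx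
      by_cases hb : b = a
      · subst hb
        simp only [Function.update_self, mem_union]
        exact Or.inl (h1 b x hx)
      · simp only [Function.update_of_ne hb]
        exact h1 b x hx
    · intro b x hbx
      by_cases hb : b = a
      · subst hb
        simp only [Function.update_self, mem_union]
        rintro ⟨hx | hx, hc⟩
        · exact h3 b x hbx ⟨hx, hc⟩
        · exact (hT x hx).1 hc
      · simp only [Function.update_of_ne hb]
        exact h3 b x hbx
  have hm := hmin _ hfeas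
  have hdiff : oo w K (Function.update B a (B a ∪ T), C) - oo w K (B, C)
      = w a * (cc w K (B a ∪ T) - cc w K (B a)) := by
    unfold oo
    rw [← sum_sub_distrib, sum_eq_single a]
    · simp only [Function.update_self]; ring
    · intro b _ hb
      simp only [Function.update_of_ne hb]; ring
    · intro h; exact absurd (mem_univ a) h
  have hc : cc w K (B a) ≤ cc w K (B a ∪ T) := by
    have : 0 ≤ w a * (cc w K (B a ∪ T) - cc w K (B a)) := by linarith
    have := nonneg_of_mul_nonneg_right this (hw a)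
    linarith
  have hdisj : Disjoint (B a) T := by
    rw [disjoint_left]
    intro x hx hxT
    exact (hT x hxT).2 hx
  have hNN : NN K (B a ∪ T) = NN K (B a) ∪ (NN K T \ NN K (B a)) := by
    ext y
    simp only [mem_union, mem_sdiff, mem_NN]
    constructor
    · rintro ⟨x, hx | hx, hxy⟩
      · exact Or.inl ⟨x, hx, hxy⟩
      · by_cases h : ∃ x ∈ B a, K x y
        · exact Or.inl h
        · exact Or.inr ⟨⟨x, hx, hxy⟩, h⟩
    · rintro (⟨x, hx, hxy⟩ | ⟨⟨x, hx, hxy⟩, _⟩)
      · exact ⟨x, Or.inl hx, hxy⟩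
      · exact ⟨x, Or.inr hx, hxy⟩
  unfold cc at hc
  rw [hNN, sum_union disjoint_sdiff, sum_union hdisj] at hc
  linarith

theorem feas_swap {K : V → V → Prop} {B C : V → Finset V} (h : Feas K (B, C)) : Feas K (C, B) := by
  obtain ⟨h1, h2, h3⟩ := h
  exact ⟨h2, h1, fun a x hax ⟨hx, ha⟩ => h3 x a (Ne.symm hax) ⟨ha, hx⟩⟩

theorem oo_swap (w : V → ℝ) (K : V → V → Prop) (B C : V → Finset V) :
    oo w K (B, C) = oo w K (C, B) := by
  unfold oo
  refine sum_congr rfl fun a _ => ?_
  simp only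
  ring

theorem hall_snd (w : V → ℝ) (hw : ∀ v, 0 < w v) (K : V → V → Prop)
    (B C : V → Finset V) (hF : Feas K (B, C))
    (hmin : ∀ P, Feas K P → oo w K (B, C) ≤ oo w K P)
    (b : V) (T : Finset V) (hT : ∀ x ∈ T, b ∉ B x ∧ x ∉ C b) :
    ∑ x ∈ T, w x ≤ ∑ y ∈ NN K T \ NN K (C b), w y :=
  hall_fst w hw K C B (feas_swap hF)
    (fun P hP => by rw [← oo_swap]; rcases P with ⟨P, P'⟩; rw [oo_swap w K P]; exact hmin _ (feas_swap hP)) b T hT

open Classical in
/-- Intersection family. -/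
noncomputable def inter (K : V → V → Prop) (B : V → Finset V) (a : V) : Finset V :=
  univ.filter (fun x => ∀ a', K a' a → x ∈ B a')

theorem mem_inter' {K : V → V → Prop} {B : V → Finset V} {a x : V} :
    x ∈ inter K B a ↔ ∀ a', K a' a → x ∈ B a' := by
  classical
  simp [inter]

/-- The shift inequality for a minimal outer pair. -/
theorem shift (w : V → ℝ) (hw : ∀ v, 0 < w v) (K : V → V → Prop) (hrefl : ∀ x, K x x)
    (B C : V → Finset V) (hF : Feas K (B, C))
    (hmin : ∀ P, Feas K P → oo w K (B, C) ≤ oo w K P) :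
    oo w K (inter K B, inter K C) ≤ oo w K (B, C) := by
  classical
  obtain ⟨h1, h2, h3⟩ := hF
  have hF : Feas K (B, C) := ⟨h1, h2, h3⟩
  -- club
  have hclub := club w hw K (fun a x => x ∈ B a) (fun a x => a ∉ C x)
    (by
      intro a T hT
      refine (hall_fst w hw K B C hF hmin a T hT).trans (le_of_eq ?_)
      congr 1
      ext y
      simp only [mem_sdiff, mem_NN, mem_filter, mem_univ, true_and]
      constructor
      · rintro ⟨h, hn⟩
        exact ⟨h, fun ⟨x, hx, hx2⟩ => hn ⟨x, hx2, hx⟩⟩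
      · rintro ⟨h, hn⟩
        exact ⟨h, fun ⟨x, hx, hx2⟩ => hn ⟨x, hx2, hx⟩⟩)
    (by
      intro b T hT
      refine (hall_snd w hw K B C hF hmin b T (fun x hx => ⟨(hT x hx).2, (hT x hx).1⟩)).trans
        (le_of_eq ?_)
      congr 1
      ext y
      simp only [mem_sdiff, mem_NN, mem_filter, mem_univ, true_and]
      constructor
      · rintro ⟨h, hn⟩
        exact ⟨h, fun a ha hc => hn ⟨a, hc, ha⟩⟩
      · rintro ⟨h, hn⟩
        exact ⟨h, fun ⟨x, hx, hx2⟩ => hn x hx2 hx⟩)
  -- pointwise facts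
  have hBU : ∀ a x, a ≠ x → x ∈ B a → a ∉ C x := fun a x hax hx hc => h3 a x hax ⟨hx, hc⟩
  have hEU0 : ∀ a, ¬ ∃ x, K x a ∧ a ∉ C x := by
    rintro a ⟨x, hx, hx2⟩
    exact hx2 (h2 x a hx)
  have hEBU : ∀ a x, a ≠ x → (∃ u, K u x ∧ u ∈ B a) → ∃ u, K u x ∧ a ∉ C u := by
    rintro a x hax ⟨u, hu, hu2⟩
    by_cases hau : a = u
    · subst hau
      exact ⟨x, hrefl x, hBU a x hax (h1 a x hu)⟩
    · exact ⟨u, hu, hBU a u hau hu2⟩
  have hABU : ∀ a x, a ≠ x → (∀ a', K a' a → x ∈ B a') → ∀ a', K a' a → a' ∉ C x := by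
    intro a x hax h a' ha' hc
    by_cases hax' : a' = x
    · subst hax'
      exact h3 a a' hax ⟨h a (hrefl a), h2 a' a ha'⟩
    · exact h3 a' x hax' ⟨h a' ha', hc⟩
  -- identity for EU
  have I1 : mu w (fun a y => ∃ x, K x y ∧ a ∉ C x) + mu w (fun a x => a = x)
      = mu w (fun a y => ∃ x, K x y ∧ x ∈ B a)
        + mu w (fun a y => (∃ x, K x y ∧ a ∉ C x ∧ ¬ x ∈ B a) ∧ ¬ ∃ x, K x y ∧ x ∈ B a) := by
    refine mu_add_eq w fun a x => ?_
    by_cases hax : a = x
    · subst hax
      right; left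
      refine ⟨hEU0 a, rfl, Or.inl ⟨⟨a, hrefl a, h1 a a (hrefl a)⟩, ?_⟩⟩
      rintro ⟨_, h⟩
      exact h ⟨a, hrefl a, h1 a a (hrefl a)⟩
    · by_cases hEB : ∃ u, K u x ∧ u ∈ B a
      · left
        exact ⟨hEBU a x hax hEB, hax, Or.inl ⟨hEB, fun h => h.2 hEB⟩⟩
      · by_cases hEU : ∃ u, K u x ∧ a ∉ C u
        · left
          refine ⟨hEU, hax, Or.inr ⟨hEB, ?_, hEB⟩⟩
          obtain ⟨u, hu, hu2⟩ := hEU
          exact ⟨u, hu, hu2, fun h => hEB ⟨u, hu, h⟩⟩
        · right; right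
          refine ⟨hEU, hax, hEB, ?_⟩
          rintro ⟨⟨u, hu, hu2, _⟩, _⟩
          exact hEU ⟨u, hu, hu2⟩
  -- identity for AU
  have I2 : mu w (fun y b => ∀ a, K a y → a ∉ C b) + mu w (fun a x => a = x)
      = mu w (fun y b => ∀ a, K a y → b ∈ B a)
        + mu w (fun y b => (∀ a, K a y → a ∉ C b) ∧ ∃ a, K a y ∧ a ∉ C b ∧ ¬ b ∈ B a) := by
    refine mu_add_eq w fun a x => ?_
    by_cases hax : a = x
    · subst hax
      right; left
      refine ⟨fun h => h a (hrefl a) (h2 a a (hrefl a)), rfl,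
        Or.inl ⟨fun a' ha' => h1 a' a ha', fun h => h.1 a (hrefl a) (h2 a a (hrefl a))⟩⟩
    · by_cases hAB : ∀ a', K a' a → x ∈ B a'
      · left
        refine ⟨hABU a x hax hAB, hax, Or.inl ⟨hAB, ?_⟩⟩
        rintro ⟨_, a', ha', _, hn⟩
        exact hn (hAB a' ha')
      · by_cases hAU : ∀ a', K a' a → a' ∉ C x
        · left
          refine ⟨hAU, hax, Or.inr ⟨hAB, hAU, ?_⟩⟩
          push Not at hAB
          obtain ⟨a', ha', hn⟩ := hAB
          exact ⟨a', ha', hAU a' ha', hn⟩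
        · right; right
          exact ⟨hAU, hax, hAB, fun h => hAU h.1⟩
  -- identity for U
  have I3 : mu w (fun a x => a ∉ C x) + mu w (fun a x => a = x)
      = mu w (fun a x => x ∈ B a) + mu w (fun a x => a ∉ C x ∧ ¬ x ∈ B a) := by
    refine mu_add_eq w fun a x => ?_
    by_cases hax : a = x
    · subst hax
      right; left
      exact ⟨fun h => h (h2 a a (hrefl a)), rfl, Or.inl ⟨h1 a a (hrefl a),
        fun h => h.1 (h2 a a (hrefl a))⟩⟩
    · by_cases hB : x ∈ B a
      · left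
        exact ⟨hBU a x hax hB, hax, Or.inl ⟨hB, fun h => h.2 hB⟩⟩
      · by_cases hC : a ∈ C x
        · right; right
          exact ⟨fun h => h hC, hax, hB, fun h => h.1 hC⟩
        · left
          exact ⟨hC, hax, Or.inr ⟨hB, hC, hB⟩⟩
  -- identity for AEU
  have I4 : mu w (fun y b => ∀ a, K a y → ∃ x, K x b ∧ a ∉ C x) + mu w (fun a x => a = x)
      = mu w (fun y b => ∃ x, K x b ∧ ∀ a, K a y → x ∈ B a)
        + mu w (fun y b => (∀ a, K a y → ∃ x, K x b ∧ a ∉ C x) ∧
          ¬ ∃ x, K x b ∧ ∀ a, K a y → x ∈ B a) := by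
    refine mu_add_eq w fun a x => ?_
    by_cases hax : a = x
    · subst hax
      right; left
      refine ⟨fun h => hEU0 a (h a (hrefl a)), rfl,
        Or.inl ⟨⟨a, hrefl a, fun a' ha' => h1 a' a ha'⟩, fun h => hEU0 a (h.1 a (hrefl a))⟩⟩
    · by_cases hE : ∃ u, K u x ∧ ∀ a', K a' a → u ∈ B a'
      · left
        refine ⟨?_, hax, Or.inl ⟨hE, fun h => h.2 hE⟩⟩
        obtain ⟨u, hu, hu2⟩ := hE
        intro a' ha'
        by_cases hax' : a' = x
        · exfalso
          subst hax'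
          -- now `a'` is `x`
          by_cases hua : u = a'
          · subst hua
            exact h3 a u hax ⟨hu2 a (hrefl a), h2 u a ha'⟩
          · exact h3 a' u (Ne.symm hua) ⟨hu2 a' ha', h2 u a' hu⟩
        · exact hEBU a' x hax' ⟨u, hu, hu2 a' ha'⟩
      · by_cases hA : ∀ a', K a' a → ∃ u, K u x ∧ a' ∉ C u
        · left
          exact ⟨hA, hax, Or.inr ⟨hE, hA, hE⟩⟩
        · right; right
          exact ⟨hA, hax, hE, fun h => hA h.1⟩
  -- the cost in terms of mu
  have cost : ∀ P Q : V → Finset V, oo w K (P, Q)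
      = mu w (fun a x => ∃ u, K u x ∧ u ∈ P a) - mu w (fun a x => x ∈ P a)
        + (mu w (fun a x => ∃ u, K u x ∧ u ∈ Q a) - mu w (fun a x => x ∈ Q a)) := by
    intro P Q
    have e : ∀ R : V → Finset V, ∑ a, w a * cc w K (R a)
        = mu w (fun a x => ∃ u, K u x ∧ u ∈ R a) - mu w (fun a x => x ∈ R a) := by
      intro R
      rw [← mu_mem w R]
      have : mu w (fun a x => ∃ u, K u x ∧ u ∈ R a) = ∑ a, w a * ∑ x ∈ NN K (R a), w x := by
        rw [mu_mem w (fun a => NN K (R a))]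
        refine mu_congr w fun a x => ?_
        rw [mem_NN]
        constructor
        · rintro ⟨u, hu, hu2⟩; exact ⟨u, hu2, hu⟩
        · rintro ⟨u, hu, hu2⟩; exact ⟨u, hu2, hu⟩
      rw [this, ← sum_sub_distrib]
      refine sum_congr rfl fun a _ => ?_
      unfold cc
      ring
    unfold oo
    simp only [mul_add]
    rw [sum_add_distrib, e P, e Q]
  rw [cost, cost]
  -- rewrite the terms of the second family
  have c1 : mu w (fun a x => x ∈ C a)
      = mu w (fun _ _ => True) - mu w (fun a x => a ∉ C x) := by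
    rw [mu_swap w (fun a x => x ∈ C a), ← mu_compl]
    exact mu_congr w fun a x => by simp
  have c2 : mu w (fun a x => ∃ u, K u x ∧ u ∈ C a)
      = mu w (fun _ _ => True) - mu w (fun y b => ∀ a, K a y → a ∉ C b) := by
    rw [mu_swap w (fun a x => ∃ u, K u x ∧ u ∈ C a), ← mu_compl]
    exact mu_congr w fun a x => by push Not; rfl
  have c3 : mu w (fun a x => x ∈ inter K C a)
      = mu w (fun _ _ => True) - mu w (fun a y => ∃ x, K x y ∧ a ∉ C x) := by
    rw [mu_swap w (fun a x => x ∈ inter K C a), ← mu_compl]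
    refine mu_congr w fun a x => ?_
    rw [mem_inter']
    push Not
    rfl
  have c4 : mu w (fun a x => ∃ u, K u x ∧ u ∈ inter K C a)
      = mu w (fun _ _ => True) - mu w (fun y b => ∀ a, K a y → ∃ x, K x b ∧ a ∉ C x) := by
    rw [mu_swap w (fun a x => ∃ u, K u x ∧ u ∈ inter K C a), ← mu_compl]
    refine mu_congr w fun a x => ?_
    simp only [mem_inter']
    push Not
    rfl
  have c5 : mu w (fun a x => x ∈ inter K B a) = mu w (fun y b => ∀ a, K a y → b ∈ B a) :=
    mu_congr w fun a x => mem_inter'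
  have c6 : mu w (fun a x => ∃ u, K u x ∧ u ∈ inter K B a)
      = mu w (fun y b => ∃ x, K x b ∧ ∀ a, K a y → x ∈ B a) :=
    mu_congr w fun a x => by simp only [mem_inter']
  rw [c1, c2, c3, c4, c5, c6]
  linarith

/-- The main result: no weight has `w (N2 S) < w (N1 S)` for all sets with an out-boundary. -/
theorem no_G (w : V → ℝ) (hw : ∀ v, 0 < w v) (K : V → V → Prop) (hrefl : ∀ x, K x x)
    (hor : ∀ a x, a ≠ x → ¬ (K a x ∧ K x a))
    (hstr : ∀ S : Finset V, S.Nonempty → (∀ x ∈ S, ∀ y, K x y → y ∈ S) → S = univ)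
    (harc : ∃ a b, a ≠ b ∧ K a b)
    (hG : ∀ S : Finset V, NN K S ≠ S → cc w K (NN K S) < cc w K S) : False := by
  classical
  have hne : (univ.filter (fun P : (V → Finset V) × (V → Finset V) => Feas K P)).Nonempty := by
    refine ⟨(fun a => univ.filter (K a), fun a => univ.filter (K a)), mem_filter.mpr
      ⟨mem_univ _, ?_, ?_, ?_⟩⟩
    · intro a x h; simpa using h
    · intro a x h; simpa using h
    · intro a x hax ⟨h1, h2⟩
      exact hor a x hax ⟨by simpa using h1, by simpa using h2⟩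
  obtain ⟨P, hP, hPmin⟩ := exists_min_image _ (fun P => oo w K P) hne
  obtain ⟨B, C⟩ := P
  have hF : Feas K (B, C) := (mem_filter.mp hP).2
  have hmin : ∀ P, Feas K P → oo w K (B, C) ≤ oo w K P := fun P hP' =>
    hPmin P (mem_filter.mpr ⟨mem_univ _, hP'⟩)
  have hsh := shift w hw K hrefl B C hF hmin
  obtain ⟨h1, h2, h3⟩ := hF
  have haX : ∀ a, a ∈ inter K B a := fun a => mem_inter'.mpr fun a' ha' => h1 a' a ha'
  have haY : ∀ a, a ∈ inter K C a := fun a => mem_inter'.mpr fun a' ha' => h2 a' a ha'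
  have hF2 : Feas K (fun a => NN K (inter K B a), fun a => NN K (inter K C a)) := by
    refine ⟨fun a x h => mem_NN.mpr ⟨a, haX a, h⟩, fun a x h => mem_NN.mpr ⟨a, haY a, h⟩, ?_⟩
    rintro a x hax ⟨hx, ha⟩
    obtain ⟨u, hu, hux⟩ := mem_NN.mp hx
    obtain ⟨z, hz, hza⟩ := mem_NN.mp ha
    rw [mem_inter'] at hu hz
    have huz : u = z := by
      by_contra hne'
      exact h3 z u (Ne.symm hne') ⟨hu z hza, hz u hux⟩
    subst huz
    have hua : u = a := by
      by_contra hne'
      exact h3 a u (Ne.symm hne') ⟨hu a (hrefl a), h2 u a hza⟩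
    subst hua
    exact h3 u x hax ⟨h1 u x hux, hz x (hrefl x)⟩
  have hlow := hmin _ hF2
  -- each row does not increase, one row decreases strictly
  have hle : ∀ S : Finset V, cc w K (NN K S) ≤ cc w K S := by
    intro S
    by_cases h : NN K S = S
    · rw [h]
    · exact (hG S h).le
  obtain ⟨y, a, hya, hK⟩ := harc
  have hyN : y ∉ NN K (inter K B a) := by
    intro h
    exact (hF2.2.2 a y (Ne.symm hya)) ⟨h, mem_NN.mpr ⟨y, haY y, hK⟩⟩
  have hneS : NN K (inter K B a) ≠ inter K B a := by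
    intro h
    have hcl : ∀ x ∈ inter K B a, ∀ z, K x z → z ∈ inter K B a := by
      intro x hx z hz
      rw [← h]
      exact mem_NN.mpr ⟨x, hx, hz⟩
    have := hstr _ ⟨a, haX a⟩ hcl
    rw [h, this] at hyN
    exact hyN (mem_univ y)
  have hstrict : oo w K (fun a => NN K (inter K B a), fun a => NN K (inter K C a))
      < oo w K (inter K B, inter K C) := by
    unfold oo
    refine sum_lt_sum (fun b _ => ?_) ⟨a, mem_univ a, ?_⟩
    · exact mul_le_mul_of_nonneg_left (add_le_add (hle _) (hle _)) (hw b).le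
    · exact mul_lt_mul_of_pos_left (add_lt_add_of_lt_of_le (hG _ hneS) (hle _)) (hw a)
  linarith

end Vale.Agent.P038.H84
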