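import Vale.Agent.P038.H71.Plan
import Vale.Agent.P038.H84.Shift

/-!
P038, H84. The glue: the normal form of a counterexample with the fewest arcs contradicts `no_G`.
-/

namespace Vale.Agent.P038.H84

open Finset Vale.Agent.P038.H139 Vale.Agent.P038.H71

universe u

variable {V : Type u} [Fintype V]

/-- Closed adjacency. -/
def KK (D : OGraph V) (x y : V) : Prop := x = y ∨ D.arc x y

theorem NN_eq_cl [DecidableEq V] (D : OGraph V) (S : Finset V) : NN (KK D) S = cl D S := by
  ext z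
  rw [mem_NN, mem_cl]
  constructor
  · rintro ⟨x, hx, rfl | h⟩
    · exact Or.inl hx
    · exact Or.inr ⟨x, hx, h⟩
  · rintro (h | ⟨x, hx, h⟩)
    · exact ⟨z, h, Or.inl rfl⟩
    · exact ⟨x, hx, Or.inr h⟩

/-- (G) for all sets with an out-boundary, in the normal form with the fewest arcs. -/
theorem strictG [DecidableEq V] {D : OGraph V} {w : V → ℝ} (h : NFmin 1 D w) (S : Finset V)
    (hS : cl D S ≠ S) :
    W w (cl D (cl D S)) - W w (cl D S) < W w (cl D S) - W w S := by
  have hsub : S ⊆ cl D S := fun z hz => mem_cl.2 (Or.inl hz)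
  have hsub2 : cl D S ⊆ cl D (cl D S) := fun z hz => mem_cl.2 (Or.inl hz)
  have hL : Lx D S = cl D S \ S := by
    ext z
    unfold Lx
    rw [mem_sdiff, mem_sdiff, mem_outS, mem_cl]
    constructor
    · rintro ⟨h1, h2⟩
      exact ⟨Or.inr h1, h2⟩
    · rintro ⟨h1 | h1, h2⟩
      · exact absurd h1 h2
      · exact ⟨h1, h2⟩
  have hne : (∅ : Finset V) ⊂ Lx D S := by
    rw [Finset.empty_ssubset, hL, Finset.sdiff_nonempty]
    intro h'
    exact hS (Finset.Subset.antisymm h' hsub)
  have hp := plan_lt h S ∅ hne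
  have hd0 : dd 1 D w S ∅ = 0 := by
    have : cl D (∅ : Finset V) = ∅ := by
      rw [Finset.eq_empty_iff_forall_notMem]
      intro z hz
      rw [mem_cl] at hz
      simp at hz
    simp [dd, this, W]
  rw [hd0] at hp
  unfold dd at hp
  have hdis : Disjoint (Lx D S) (cl D (cl D S) \ cl D S) := by
    rw [hL, Finset.disjoint_left]
    intro z hz hz'
    exact (mem_sdiff.1 hz').2 (mem_sdiff.1 hz).1
  have hsub3 : Lx D S ∪ (cl D (cl D S) \ cl D S) ⊆ cl D (Lx D S) \ S := by
    intro z hz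
    rcases mem_union.1 hz with hz | hz
    · refine mem_sdiff.2 ⟨mem_cl.2 (Or.inl hz), ?_⟩
      rw [hL] at hz
      exact (mem_sdiff.1 hz).2
    · obtain ⟨hz1, hz2⟩ := mem_sdiff.1 hz
      refine mem_sdiff.2 ⟨?_, fun h' => hz2 (hsub h')⟩
      rcases mem_cl.1 hz1 with hz1 | ⟨y, hy, hyz⟩
      · exact absurd hz1 hz2
      · refine mem_cl.2 (Or.inr ⟨y, ?_, hyz⟩)
        rw [hL]
        refine mem_sdiff.2 ⟨hy, fun h' => hz2 (mem_cl.2 (Or.inr ⟨y, h', hyz⟩))⟩
  have h1 := W_mono h.nonneg hsub3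
  rw [W_union hdis, W_sdiff hsub2] at h1
  have h2 : W w (Lx D S) = W w (cl D S) - W w S := by
    rw [hL]
    exact W_sdiff hsub
  rw [h2] at h1 hp
  linarith

/-- A set closed under out-neighbours is everything. -/
theorem closed_univ {lam : ℝ} {D : OGraph V} {w : V → ℝ} (h : NF lam D w) (S : Finset V)
    (hne : S.Nonempty) (hcl : ∀ x ∈ S, ∀ y, D.arc x y → y ∈ S) : S = univ := by
  classical
  by_contra hS
  obtain ⟨v0, hv0⟩ : ∃ v, v ∉ S := by
    by_contra hno
    push Not at hno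
    exact hS (Finset.eq_univ_iff_forall.2 hno)
  have : Nonempty {v // v ∈ S} := by
    obtain ⟨v, hv⟩ := hne
    exact ⟨⟨v, hv⟩⟩
  have hcard : Fintype.card {v // v ∈ S} < Fintype.card V :=
    Fintype.card_subtype_lt (x := v0) hv0
  set D' : OGraph {v // v ∈ S} :=
    { arc := fun a b => D.arc a.1 b.1
      loopless := fun a => D.loopless a.1
      asymm := fun a b => D.asymm a.1 b.1 } with hD'
  obtain ⟨v, hv⟩ := h.ind {v // v ∈ S} hcard D' (fun v => w v.1) (fun v => h.nonneg v.1)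
  have h1 : W (fun v : {v // v ∈ S} => w v.1) (N1 D' v) = W w (N1 D v.1) := by
    have e : W (fun v : {v // v ∈ S} => w v.1) (N1 D' v) =
        ∑ z ∈ (N1 D' v).map (Function.Embedding.subtype _), w z := by
      rw [Finset.sum_map]; rfl
    rw [e]
    refine Finset.sum_subset ?_ ?_
    · intro z hz
      obtain ⟨z', hz', rfl⟩ := Finset.mem_map.1 hz
      have h1 : D'.arc v z' := mem_N1.1 hz'
      exact mem_N1.2 h1
    · intro z hz hz'
      exfalso
      have h1 : D.arc v.1 z := mem_N1.1 hz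
      have hzS : z ∈ S := hcl v.1 v.2 z h1
      have h2 : (⟨z, hzS⟩ : {v // v ∈ S}) ∈ N1 D' v := mem_N1.2 h1
      exact hz' (Finset.mem_map.2 ⟨⟨z, hzS⟩, h2, rfl⟩)
  have h2 : W (fun v : {v // v ∈ S} => w v.1) (N2 D' v) ≤ W w (N2 D v.1) := by
    have e : W (fun v : {v // v ∈ S} => w v.1) (N2 D' v) =
        ∑ z ∈ (N2 D' v).map (Function.Embedding.subtype _), w z := by
      rw [Finset.sum_map]; rfl
    rw [e]
    refine Finset.sum_le_sum_of_subset_of_nonneg ?_ fun z _ _ => h.nonneg z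
    intro z hz
    obtain ⟨z', hz', rfl⟩ := Finset.mem_map.1 hz
    obtain ⟨h3, h4, m, h5, h6⟩ := mem_N2.1 hz'
    exact mem_N2.2 ⟨fun h => h3 (Subtype.ext h), h4, m.1, h5, h6⟩
  have h3 := h.one v.1
  unfold Fw at h3 hv
  rw [h1] at hv
  linarith

/-- No normal form with the fewest arcs for `lam = 1`. -/
theorem no_NFmin [Nonempty V] {D : OGraph V} {w : V → ℝ} (h : NFmin 1 D w) : False := by
  classical
  refine no_G w h.pos (KK D) (fun x => Or.inl rfl) ?_ ?_ ?_ ?_
  · rintro a x hax ⟨h1 | h1, h2 | h2⟩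
    · exact hax h1
    · exact hax h1
    · exact hax h2.symm
    · exact D.asymm _ _ h1 h2
  · intro S hne hcl
    exact closed_univ h.toNF S hne fun x hx y hxy => hcl x hx y (Or.inr hxy)
  · obtain ⟨v⟩ := ‹Nonempty V›
    have h1 := h.one v
    by_contra hno
    push Not at hno
    have h2 : N1 D v = ∅ := by
      rw [Finset.eq_empty_iff_forall_notMem]
      intro y hy
      rw [mem_N1] at hy
      have hne : v ≠ y := by
        rintro rfl
        exact D.loopless _ hy
      exact hno v y hne (Or.inr hy)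
    have h3 : 0 ≤ W w (N2 D v) := W_nonneg h.nonneg _
    unfold Fw at h1
    rw [h2] at h1
    simp only [W, Finset.sum_empty, mul_zero] at h1 h3
    linarith
  · intro S hS
    rw [NN_eq_cl] at hS
    have := strictG h S hS
    unfold cc
    rw [NN_eq_cl, NN_eq_cl]
    exact this

theorem no_NF [Nonempty V] (D : OGraph V) (w : V → ℝ) : ¬ NF 1 D w := by
  intro h
  obtain ⟨D', w', h'⟩ := exists_nfmin h
  exact no_NFmin h'

/-- Seymour's second neighbourhood conjecture, weighted form. -/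
theorem seymour_weighted [Nonempty V] (D : OGraph V) (w : V → ℝ) (hw : ∀ v, 0 ≤ w v) :
    ∃ v, ∑ u ∈ N1 D v, w u ≤ ∑ u ∈ N2 D v, w u := by
  obtain ⟨v, hv⟩ := snc_of_noNF (lam := 1) zero_le_one
    (fun V _ _ D w => no_NF D w) D w hw
  exact ⟨v, by simpa using hv⟩

/-- Seymour's second neighbourhood conjecture. -/
theorem seymour [Nonempty V] (D : OGraph V) : ∃ v, (N1 D v).card ≤ (N2 D v).card := by
  obtain ⟨v, hv⟩ := seymour_weighted D (fun _ => 1) (fun _ => zero_le_one)
  refine ⟨v, ?_⟩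
  simpa using hv

end Vale.Agent.P038.H84
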